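import Vale.Agent.P014T.Bt.Ac
import Vale.Agent.P014T.Ba.Lev
import Vale.Agent.P014T.Cp.Defs
import Vale.Agent.P014T.Iv.Inv
import Vale.Agent.P014T.Lc.Fx
import Vale.Agent.P014T.Rb.Chi
import Vale.Agent.P014T.Rk.Defs
import Vale.Agent.P014T.Lk.Ell
import Vale.Agent.P014T.Pu.Ey
import Vale.Agent.P004F.Defs

/-! # P014T: the top level (words and rows) -/

set_option autoImplicit false
set_option linter.all false

open NumberField Matrix UpperHalfPlane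
open scoped NumberTheorySymbols Classical

noncomputable section

namespace Vale.Agent.P014T.Top

open Vale.Agent.P014 (GlobalMinimal IsHasseWeil realPeriod torsionOrder shaPrimary)
open Vale.Agent.P022 (Qb GQ IsConj)
open Vale.Agent.P022K.G2 (In)
open Vale.Agent.P027M.S (Inert)
open Vale.Agent.P022D.W (dec)
open Vale.Agent.P022E.GW (Ov Fb)
open Vale.Agent.P004S.Ga (K)
open Vale.Agent.P004F (sd hq M2)
open Vale.Agent.P004F.Rc (mq)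
open P004M.TE (Pt ga mt al)
open P004N (RN IsEll cE)
open P004N.T8 (inc)
open P004N.H169 (IsLh)
open P027M.K (TM)
open Bt (dd Z0 Gp p0)
open Wm (Fx)
open Lc (Wq tm np Lk)
open Ah (Ind am)
open Sm (Md)

/-- **the target** -/
def BSD2 : Prop := ∀ (E : WeierstrassCurve ℚ) [E.IsElliptic], GlobalMinimal E →
  ∀ L, IsHasseWeil E L → ∀ r : ℕ, r ≤ 1 → analyticOrderAt L 1 = r →
    Module.finrank ℤ E.toAffine.Point = r ∧ Finite (shaPrimary E 2) ∧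
    (∃ P : Fin r → E.toAffine.Point, IsBasisModTorsion E P) ∧
    ∀ P : Fin r → E.toAffine.Point, IsBasisModTorsion E P →
      PPart E L 2 P (Nat.card (shaPrimary E 2))

/-! ## curves -/

/-- the short model -/
def sI (A B : ℤ) : WeierstrassCurve ℤ := ⟨0, 0, 0, A, B⟩

/-- the discriminant is not zero -/
abbrev El (A B : ℤ) : Prop := 4 * A ^ 3 + 27 * B ^ 2 ≠ 0

/-- the same coefficients at almost all primes -/
def Ae (A B A' B' : ℤ) : Prop := {p : ℕ | p.Prime ∧ al A B p ≠ al A' B' p}.Finite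

/-- the newform of the curve -/
structure Nf (A B : ℤ) (N : ℕ) (G : ℍ → ℂ) (a : ℕ → ℤ) : Prop where
  rn : RN N G a
  fin : {p : ℕ | p.Prime ∧ al A B p ≠ a p}.Finite

/-- the analytic rank -/
def Ar (A B : ℤ) (r : ℕ) : Prop := ∃ L, IsEll (Wq (sI A B)) L ∧ analyticOrderAt L 1 = r

/-- the twisting parameters -/
def Ad (d : ℤ) : Prop := Squarefree d ∧ d % 8 = 1

/-- a set of primes -/
def Pm (S : Finset ℕ) : Prop := ∀ p ∈ S, p.Prime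

/-- `S` contains two and the bad primes of the equation -/
def Bd (W : WeierstrassCurve ℤ) (S : Finset ℕ) : Prop :=
  Pm S ∧ ∀ p : ℕ, p.Prime → (p : ℤ) ∣ 2 * W.Δ → p ∈ S

/-- **the discrepancy**: `v` is the valuation of the quotient of the two sides -/
def Dis (W : WeierstrassCurve ℤ) (S : Finset ℕ) (r : ℕ) (v : ℤ) : Prop :=
  ∃ (L : ℂ → ℂ) (Q : Fin r → (Wq W).toAffine.Point) (ρ : ℚ),
    IsLh (inc (∏ p ∈ S, p) (cE (Wq W))) L ∧ analyticOrderAt L 1 = r ∧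
    IsBasisModTorsion (Wq W) Q ∧ Finite (shaPrimary (Wq W) 2) ∧ ρ ≠ 0 ∧ padicValRat 2 ρ = v ∧
    iteratedDeriv r L 1 / (r.factorial : ℂ) = (ρ : ℂ) * ((realPeriod (Wq W) * regulator (Wq W) Q *
      (Nat.card (shaPrimary (Wq W) 2) : ℝ) * (∏ p ∈ S, (tm (Wq W) p * np W p / p : ℝ)) /
      (torsionOrder (Wq W) : ℝ) ^ 2 : ℝ) : ℂ)

/-- the same for the short model and some `S` -/
def Di (A B : ℤ) (r : ℕ) (v : ℤ) : Prop := ∃ S, Bd (sI A B) S ∧ Dis (sI A B) S r v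

/-! ## local-global compatibility -/

/-- no invariants under inertia -/
def No (r : GQ → M2 ℤ_[2]) (p : ℕ) : Prop :=
  ∀ P, Ov p P → ∀ v : Fin 2 → ℤ_[2], (∀ g, Inert P g → r g *ᵥ v = v) → v = 0

/-- unramified with trace `t` -/
def Gd (r : GQ → M2 ℤ_[2]) (t : ℤ) (p : ℕ) : Prop :=
  ∀ P, Ov p P → (∀ g, Inert P g → r g = 1) ∧ ∀ φ, Fb p P φ → (r φ).trace = t

/-- ramified, the Frobenius acts by `t p` on the invariants -/
def Mu (r : GQ → M2 ℤ_[2]) (t : ℤ) (p : ℕ) : Prop :=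
  ∀ P, Ov p P → (∃ g, Inert P g ∧ r g ≠ 1) ∧ ∀ v : Fin 2 → ℤ_[2], (∀ g, Inert P g → r g *ᵥ v = v) →
    ∀ φ, Fb p P φ → r φ *ᵥ v = (t * p : ℤ) • v

/-- the Euler factors of the twist by `d` divide those of the twisted form -/
def Lg {A B : ℤ} (h : El A B) (N : ℕ) (a : ℕ → ℤ) (d : ℤ) : Prop := ∀ p : ℕ, p.Prime → p ≠ 2 →
  No (fun g => sd d g • mt (hq h) g) p ∨ ¬ (p : ℤ) ∣ d ∧
    (¬ p ∣ N ∧ Gd (mt (hq h)) (a p) p ∨ p ∣ N ∧ Mu (mt (hq h)) (a p) p)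

/-! ## zeta elements -/

/-- the generator of the real periods -/
def w0 (A B : ℤ) : ℝ := realPeriod (Wq (sI A B)) / p0 A B

/-- the number of points modulo a good prime -/
def nq (A B : ℤ) (q : ℕ) : ℤ := q + 1 - al A B q

/-- the weights prime to `S` -/
def cS (S : Finset ℕ) (f : ℕ → ℂ) (n : ℕ) : ℂ := if n.Coprime (∏ p ∈ S, p) then f n else 0

/-- the order of the level `j` part -/
def cz (A B : ℤ) (T : Finset ℕ) (c : GQ) (j : ℕ) : ℕ := Nat.card (Ba.Tk (Z0 A B T c) j)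

/-- the order of the group generated by the coboundary and the class at level `j` -/
def sg {A B : ℤ} (g : P004M.TE.Tm A B) (n j : ℕ) (z : GQ → Pt A B) : ℕ :=
  Ba.sp (dd A B (TM.cp j g)) (2 ^ (n - j) • z)

section

variable {A B : ℤ} (h : El A B)

/-- the local pairing at `P` with `z` is `μ` times the logarithm -/
def Rc (P : Ideal (𝓞 Qb)) (lg : Fx A B (dec P) →+ K) (m n : ℕ) (z : GQ → Pt A B) (μ : K) : Prop :=
  ∀ (y : Fx A B (dec P)) (y' : Pt A B), 2 ^ n • y' = 2 ^ m • y.1 →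
    Iv.iv P (Cp.cp (Ki.wp (hq h)) n (dd A B y') z) = mq (lg (2 ^ m • y) * μ / 2 ^ n)

/-- **the zeta element at level `n`** -/
structure Zt (S : Finset ℕ) (c : GQ) (P : Ideal (𝓞 Qb)) (ι : Qb →+* ℂ_[2])
    (lg : Fx A B (dec P) →+ K) (σ α : ℤ_[2]) (ρ : ℚ) (m n : ℕ) (z : GQ → Pt A B) : Prop where
  mem : z ∈ Z0 A B S c
  tor : 2 ^ n • z = 0
  r0 : ∃ u : ℤ_[2]ˣ, Rc h P lg m n z ((u * σ : ℤ_[2]) * ρ)
  r1 : ρ = 0 → ∀ (l : ℕ) W χ, Rb.Lx l n W χ → l ∉ S → m < l → W (-1) = 0 → (∀ p ∈ S, W p = 0) →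
    ∃ (z₁ : GQ → Pt A B) (t : Pt A B) (j : Qb →+* ℂ) (x : Qb) (μ : K) (u : ℤ_[2]ˣ),
      Rb.Cn n z₁ ∧ 2 ^ n • t = 0 ∧ (∀ g ∈ In (insert l S : Finset ℕ), z₁ g = 0) ∧
      (∀ g k, z₁ (g * k) = z₁ g + ga g (z₁ k) + (χ g).val • ga g (nq A B l • z k + (ga k t - t))) ∧
      j x * w0 A B = Rk.Lw (al A B) (cS (insert l S) fun k => (W k).val) ∧
      ‖am μ - ι x‖ * 2 ^ n ≤ 2 ^ m ∧ Rc h P lg m n z₁ ((u * σ : ℤ_[2]) * μ)
  mc : ∃ C : Finset ℕ, C.card ≤ m ∧ (∀ q ∈ C, q.Prime ∧ q ∉ S ∧ ¬ (2 : ℤ) ^ m ∣ nq A B q) ∧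
    ∀ g, Gp A B c g → ∀ b j, b + m < j → j + b + m ≤ n →
      4 ^ j ≤ 2 ^ b * sg g n j ((∏ q ∈ C, nq A B q) • z) →
      cz A B (S ∪ C) c n ≤ 4 ^ n * 2 ^ (b + m) ∧
      (sg g n j ((∏ q ∈ C, nq A B q) • z) * cz A B (S ∪ C) c j : ℝ) = 16 ^ j * ‖σ * α‖

/-- zeta elements exist at all levels; `α` is the value of the quotient in the main conjecture -/
def Kt (S : Finset ℕ) (α : ℤ_[2]) : Prop :=
  ∃ (c : GQ) (P : Ideal (𝓞 Qb)) (ι : Qb →+* ℂ_[2]) (lg : Fx A B (dec P) →+ K) (σ : ℤ_[2]) (ρ : ℚ)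
    (m : ℕ), IsConj c ∧ Ov 2 P ∧ Ind ι P ∧ Lk ι lg ∧ σ ≠ 0 ∧
    Rk.Lw (al A B) (cS S 1) = ρ * w0 A B ∧ ∀ n, ∃ z, Zt h S c P ι lg σ α ρ m n z

end

/-! ## rows -/

/-- modularity -/
def MODN : Prop := ∀ A B, El A B → ∃ N G a, Nf A B N G a

/-- the analytic half of the compatibility -/
def LH : Prop := ∀ (E : WeierstrassCurve ℚ) [E.IsElliptic] L, IsHasseWeil E L →
  ∀ (A B : ℤ) u r s t N G a, Md E A B u r s t → Nf A B N G a → ∀ p : ℕ, p.Prime → p ≠ 2 →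
    al A B p = 0 ∧ al A B (p ^ 2) = 0 ∨ a p = al A B p ∧ a (p ^ 2) = al A B (p ^ 2)

/-- the reduction type is seen by the representation -/
def ELC : Prop := ∀ (A B : ℤ) (h : El A B) (p : ℕ), p.Prime → p ≠ 2 →
  (al A B p = 0 → al A B (p ^ 2) = 0 → No (mt (hq h)) p) ∧
  (al A B p ^ 2 - al A B (p ^ 2) = p ∧ Gd (mt (hq h)) (al A B p) p ∨
    al A B p ^ 2 = al A B (p ^ 2) ∧ Mu (mt (hq h)) (al A B p) p)

def LGE : Prop := ∀ (E : WeierstrassCurve ℚ) [E.IsElliptic] L, IsHasseWeil E L →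
  ∀ (A B : ℤ) u r s t N G a (h : El A B), Md E A B u r s t → Nf A B N G a → Lg h N a 1

/-- isogenies -/
def LGI : Prop := ∀ (A B A' B' : ℤ) (h : El A B) (h' : El A' B') N a d, Ae A B A' B' →
  Lg h N a d → Lg h' N a d

def TWA : Prop := ∀ A B A' B' d : ℤ, El A B → El A' B' → d ≠ 0 → Ae A B A' B' →
  Ae (A * d ^ 2) (B * d ^ 3) (A' * d ^ 2) (B' * d ^ 3)

/-- twists which need no compatibility -/
def TWS : Prop := ∀ (A B : ℤ) (h : El A B) N G a, Nf A B N G a → ∃ (d₀ : ℤ) (S₀ : Finset ℕ),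
  Ad d₀ ∧ Pm S₀ ∧ ∀ d, Ad d → (∀ p ∈ S₀, ¬ (p : ℤ) ∣ d) → Ad (d₀ * d) ∧ Lg h N a (d₀ * d) ∧
    ∀ h' : El (A * (d₀ * d) ^ 2) (B * (d₀ * d) ^ 3), ∃ N' G' a',
      Nf (A * (d₀ * d) ^ 2) (B * (d₀ * d) ^ 3) N' G' a' ∧ Lg h' N' a' 1

/-- **Kato's Euler system** -/
def KATO : Prop := ∀ N G a A B w I x y (h : Pu.ParY N a A B w I x y), RN N G a →
  ∀ (d : ℤ) (h' : El (A * d ^ 2) (B * d ^ 3)) (S₀ : Finset ℕ), Ad d → 0 < d → Pm S₀ →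
    Lg h.disc N a 1 → Lg h.disc N a d → ∃ (S : Finset ℕ) (α α' : ℤ_[2]), S₀ ⊆ S ∧ Pm S ∧
      Kt h.disc S α ∧ Kt h' S α' ∧ (IsUnit α ↔ IsUnit α')

/-- zeta elements move along isogenies -/
def KTI : Prop := ∀ (A B A' B' : ℤ) (h : El A B) (h' : El A' B'), Ae A B A' B' →
  ∃ S₀, Pm S₀ ∧ ∀ S α, S₀ ⊆ S → Pm S → Kt h S α → Kt h' S α

/-- from the main conjecture to the formula -/
def BV (r : ℕ) : Prop := ∀ (A B : ℤ) (h : El A B), Ar A B r → ∃ S₀, Pm S₀ ∧ ∀ S α, S₀ ⊆ S → Pm S →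
  Kt h S α → α ≠ 0 ∧ Bd (sI A B) S ∧ Dis (sI A B) S r α.valuation

/-- the inequality and the congruence -/
def MT : Prop := ∀ (A B : ℤ) (h : El A B) N G a (d A' B' : ℤ) (r r' : ℕ), Nf A B N G a → Ad d →
  0 < d → Lg h N a 1 → Lg h N a d → El A' B' → Ae (A * d ^ 2) (B * d ^ 3) A' B' → r ≤ 1 → r' ≤ 1 →
  Ar A B r → Ar A' B' r' →
  ∃ v v' : ℤ, 0 ≤ v ∧ 0 ≤ v' ∧ Di A B r v ∧ Di A' B' r' v' ∧ (v = 0 ↔ v' = 0)

/-- **the opposite inequality for one pair of twists** -/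
def KK : Prop := ∀ A B : ℤ, El A B → ∀ S₀ : Finset ℕ, Pm S₀ → ∃ d₁ d₀ A₁ B₁ A₀ B₀ : ℤ,
  Ad d₁ ∧ Ad d₀ ∧ d₁ * d₀ < 0 ∧ (∀ p ∈ S₀, ¬ (p : ℤ) ∣ d₁ ∧ ¬ (p : ℤ) ∣ d₀) ∧ El A₁ B₁ ∧ El A₀ B₀ ∧
  Ae (A * d₁ ^ 2) (B * d₁ ^ 3) A₁ B₁ ∧ Ae (A * d₀ ^ 2) (B * d₀ ^ 3) A₀ B₀ ∧
  Ar A₁ B₁ 1 ∧ Ar A₀ B₀ 0 ∧ ∀ v₁ v₀, Di A₁ B₁ 1 v₁ → Di A₀ B₀ 0 v₀ → v₁ + v₀ ≤ 0

/-- the discrepancy depends neither on the equation nor on `S` -/
def INV : Prop := ∀ (W : WeierstrassCurve ℤ) (A B : ℤ) u r s t S S' k v, W.Δ ≠ 0 →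
  Md (Wq W) A B u r s t → Bd W S → Bd (sI A B) S' → (Dis W S k v ↔ Dis (sI A B) S' k v)

/-- the words of the problem -/
def STAT : Prop := ∀ (E : WeierstrassCurve ℚ) [E.IsElliptic], GlobalMinimal E →
  ∀ L, IsHasseWeil E L → ∀ (A B : ℤ) u r s t (k : ℕ), Md E A B u r s t → k ≤ 1 →
    (analyticOrderAt L 1 = k → Ar A B k) ∧ (Di A B k 0 →
      Module.finrank ℤ E.toAffine.Point = k ∧ Finite (shaPrimary E 2) ∧
      (∃ P : Fin k → E.toAffine.Point, IsBasisModTorsion E P) ∧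
      ∀ P : Fin k → E.toAffine.Point, IsBasisModTorsion E P →
        PPart E L 2 P (Nat.card (shaPrimary E 2)))

end Vale.Agent.P014T.Top
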