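import Vale.Agent.P014T.All0
import Vale.Agent.P014T.Tp.LguAll
import Vale.Agent.P014T.Ct.All

/-! # P014T: the closed form -/

namespace Vale.Agent.P014T.Top

/-- **the part at two of the formula in analytic rank at most one** -/
theorem bsde : BSDE := bsde_of Ct.kato_all lgu_all

end Vale.Agent.P014T.Top
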