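import Vale.Agent.P014T.Top
import Vale.Agent.P014T.Tp.Tws
import Vale.Agent.P014T.Tp.Lgi
import Vale.Agent.P014T.Tp.Bv0
import Vale.Agent.P014T.Tp.Ste
import Vale.Agent.P014T.Tp.Lh
import Vale.Agent.P014T.Tp.Odd
import Vale.Agent.P014T.Gt.Elc
import Vale.Agent.P014T.Tv.Inv
import Vale.Agent.P014T.La.Kti
import Vale.Agent.P014T.Pl.All
import Vale.Agent.P014T.Nv.All
import Vale.Agent.P014T.Kt.All
import Vale.Agent.P004M.All

/-! # P014T: wiring of all rows but two -/

namespace Vale.Agent.P014T.Top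

theorem md_all : MODN := modn P004M.modular

theorem mt_all (k : KATO) : MT :=
  mt_of k La.kti (bv0 md_all) (Pl.bv1_all md_all Nv.nvd_all) lgi twa

theorem bsde_of (k : KATO) (l : LGU) : BSDE :=
  tope md_all l lgi tws (mt_all k) Kt.kk_all (ste Tv.inv)

theorem ex_ell (E : WeierstrassCurve ℚ) [E.IsElliptic] : ∃ L, P004N.IsEll E L :=
  Lk.ex P004M.modular E

end Vale.Agent.P014T.Top
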