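import Vale.Agent.P014T.St
import Vale.Agent.P004S.Bas

/-! # P014T: the glue of the top level -/

set_option autoImplicit false
set_option linter.all false

open NumberField Matrix UpperHalfPlane
open scoped NumberTheorySymbols Classical

noncomputable section

namespace Vale.Agent.P014T.Top

open Vale.Agent.P014 (GlobalMinimal IsHasseWeil realPeriod torsionOrder shaPrimary)
open Vale.Agent.P022 (Qb GQ IsConj)
open Vale.Agent.P022K.G2 (In)
open Vale.Agent.P027M.S (Inert)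
open Vale.Agent.P022D.W (dec)
open Vale.Agent.P022E.GW (Ov Fb)
open Vale.Agent.P004S.Ga (K)
open Vale.Agent.P004F (sd hq M2)
open Vale.Agent.P004F.Rc (mq)
open P004M.TE (Pt ga mt al)
open P004N (RN IsEll cE)
open P004N.T8 (inc)
open P004N.H169 (IsLh)
open P027M.K (TM)
open Bt (dd Z0 Gp p0)
open Wm (Fx)
open Lc (Wq tm np Lk)
open Ah (Ind am)
open Sm (Md)

/-! ## glue -/

theorem Ae.refl (A B : ℤ) : Ae A B A B := by simp [Ae]

theorem Ae.symm {A B A' B' : ℤ} (h : Ae A B A' B') : Ae A' B' A B :=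
  h.subset fun _ k => ⟨k.1, k.2.symm⟩

theorem Ae.trans {A B A' B' A'' B'' : ℤ} (h : Ae A B A' B') (k : Ae A' B' A'' B'') :
    Ae A B A'' B'' := (Set.Finite.union h k).subset fun p m => by
  by_contra c
  simp only [Set.mem_union, Set.mem_setOf_eq, m.1, true_and, not_or, not_not] at c
  exact m.2 (c.1.trans c.2)

theorem Nf.of {A B A' B' : ℤ} {N : ℕ} {G : ℍ → ℂ} {a : ℕ → ℤ} (h : Nf A B N G a)
    (k : Ae A B A' B') : Nf A' B' N G a :=
  ⟨h.rn, (Set.Finite.union h.fin k).subset fun p m => by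
    by_contra c
    simp only [Set.mem_union, Set.mem_setOf_eq, m.1, true_and, not_or, not_not] at c
    exact m.2 (c.2.symm.trans c.1)⟩

theorem Nf.ae {A B A' B' : ℤ} {N : ℕ} {G G' : ℍ → ℂ} {a : ℕ → ℤ} (h : Nf A B N G a)
    (k : Nf A' B' N G' a) : Ae A B A' B' :=
  (Set.Finite.union h.fin k.fin).subset fun p m => by
    by_contra c
    simp only [Set.mem_union, Set.mem_setOf_eq, m.1, true_and, not_or, not_not] at c
    exact m.2 (c.1.trans c.2.symm)

theorem El.tw {A B d : ℤ} (h : El A B) (hd : d ≠ 0) : El (A * d ^ 2) (B * d ^ 3) := fun e =>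
  mul_ne_zero h (pow_ne_zero 6 hd) (by linear_combination e)

theorem Ad.ne {d : ℤ} (h : Ad d) : d ≠ 0 := h.1.ne_zero

theorem ad_one : Ad 1 := ⟨squarefree_one, rfl⟩

theorem Pm.union {S T : Finset ℕ} (h : Pm S) (k : Pm T) : Pm (S ∪ T) := fun p m =>
  (Finset.mem_union.1 m).elim (h p) (k p)

theorem val_zero {α : ℤ_[2]} (h : α ≠ 0) : (α.valuation : ℤ) = 0 ↔ IsUnit α := by
  rw [PadicInt.isUnit_iff, PadicInt.norm_eq_zpow_neg_valuation h, Nat.cast_eq_zero]
  constructor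
  · intro e
    simp [e]
  · intro e
    have := (zpow_eq_one_iff_right₀ (by positivity) (by norm_num)).1 e
    simpa using this

theorem lge (lh : LH) (elc : ELC) (cf : P004N.StCf) : LGE := by
  intro E _ L hL A B u r s t N G a h md nf p hp p2
  have c := cf N G a nf.rn
  rcases lh E L hL A B u r s t N G a md nf p hp p2 with ⟨a1, a2⟩ | ⟨a1, a2⟩
  · left
    have e : (fun g => sd 1 g • mt (hq h) g) = fun g => P004M.TE.mt (hq h) g := by
      funext g
      rw [show sd 1 g = 1 from if_pos (P004S.nu_one_left g), one_smul]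
    rw [e]
    exact (elc A B h p hp p2).1 a1 a2
  · refine .inr ⟨fun k => hp.ne_one (by exact_mod_cast Int.eq_one_of_dvd_one (by positivity) k), ?_⟩
    rw [a1]
    have p0 : (p : ℤ) ≠ 0 := by exact_mod_cast hp.ne_zero
    rcases (elc A B h p hp p2).2 with ⟨b1, b2⟩ | ⟨b1, b2⟩
    · refine .inl ⟨fun k => p0 ?_, b2⟩
      have := c.bad p hp k 1
      rw [pow_one] at this
      rw [← b1, ← a1, ← a2, this]
      ring
    · refine .inr ⟨by_contra fun k => p0 ?_, b2⟩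
      have := c.good p hp k 0
      rw [pow_zero, c.one, zero_add, zero_add, pow_one, a1, a2, ← b1] at this
      linear_combination this

theorem mt_of (kato : KATO) (kti : KTI) (b0 : BV 0) (b1 : BV 1) (lgi : LGI) (twa : TWA) : MT := by
  intro A B h N G a d A' B' r r' nf ad d0 l1 ld h' ae r1 r1' ar ar'
  have bv : ∀ k ≤ 1, BV k := fun k hk => by
    obtain rfl | rfl : k = 0 ∨ k = 1 := by omega
    exacts [b0, b1]
  obtain ⟨A₁, B₁, w, I, x, y, py⟩ := Pu.ex_parY nf.rn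
  have e1 : Ae A B A₁ B₁ := nf.ae (⟨nf.rn, py.mat⟩ : Nf A₁ B₁ N G a)
  have h1 := El.tw py.disc ad.ne
  obtain ⟨S₁, p1, k1⟩ := kti A₁ B₁ A B py.disc h e1.symm
  obtain ⟨S₂, p2, k2⟩ := kti _ _ A' B' h1 h' ((twa _ _ _ _ d py.disc h ad.ne e1.symm).trans ae)
  obtain ⟨S₃, p3, k3⟩ := bv r r1 A B h ar
  obtain ⟨S₄, p4, k4⟩ := bv r' r1' A' B' h' ar'
  obtain ⟨S, α, α', sub, pS, c, c', e⟩ := kato N G a A₁ B₁ w I x y py nf.rn d h1
    (S₁ ∪ S₂ ∪ (S₃ ∪ S₄)) ad d0 ((p1.union p2).union (p3.union p4)) (lgi _ _ _ _ h _ N a 1 e1 l1)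
    (lgi _ _ _ _ h _ N a d e1 ld)
  simp only [Finset.union_subset_iff] at sub
  obtain ⟨n, b, D⟩ := k3 S α sub.2.1 pS (k1 S α sub.1.1 pS c)
  obtain ⟨n', b', D'⟩ := k4 S α' sub.2.2 pS (k2 S α' sub.1.2 pS c')
  exact ⟨_, _, by positivity, by positivity, ⟨S, b, D⟩, ⟨S, b', D'⟩,
    (val_zero n).trans (e.trans (val_zero n').symm)⟩

/-! ## the form which needs only the continuation to `Re s ≥ 1` -/

/-- the target for the continuation to a neighbourhood of `Re s ≥ 1` -/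
def BSDE : Prop := ∀ (E : WeierstrassCurve ℚ) [E.IsElliptic], GlobalMinimal E →
  ∀ L, IsEll E L → ∀ r : ℕ, r ≤ 1 → analyticOrderAt L 1 = r →
    Module.finrank ℤ E.toAffine.Point = r ∧ Finite (shaPrimary E 2) ∧
    (∃ P : Fin r → E.toAffine.Point, IsBasisModTorsion E P) ∧
    ∀ P : Fin r → E.toAffine.Point, IsBasisModTorsion E P →
      PPart E L 2 P (Nat.card (shaPrimary E 2))

/-- the compatibility for all curves -/
def LGU : Prop := ∀ (A B : ℤ) (h : El A B) N G a, Nf A B N G a → Lg h N a 1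

/-- the words of the problem, for the weak continuation -/
def STE : Prop := ∀ (E : WeierstrassCurve ℚ) [E.IsElliptic], GlobalMinimal E →
  ∀ L, IsEll E L → ∀ (A B : ℤ) u r s t (k : ℕ), Md E A B u r s t → k ≤ 1 →
    (analyticOrderAt L 1 = k → Ar A B k) ∧ (Di A B k 0 →
      Module.finrank ℤ E.toAffine.Point = k ∧ Finite (shaPrimary E 2) ∧
      (∃ P : Fin k → E.toAffine.Point, IsBasisModTorsion E P) ∧
      ∀ P : Fin k → E.toAffine.Point, IsBasisModTorsion E P →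
        PPart E L 2 P (Nat.card (shaPrimary E 2)))

theorem STE.stat (h : STE) : STAT := fun E _ m L hL => h E m L (Lk.hw hL)

theorem BSDE.bsd (h : BSDE) : BSD2 := fun E _ m L hL => h E m L (Lk.hw hL)

/-- **the discrepancy vanishes** -/
theorem core (lgi : LGI) (tws : TWS) (mt : MT) (kk : KK) {A B : ℤ} (h : El A B) {N : ℕ} {G : ℍ → ℂ}
    {a : ℕ → ℤ} (nf : Nf A B N G a) (l1 : Lg h N a 1) {r : ℕ} (r1 : r ≤ 1) (ar : Ar A B r) :
    Di A B r 0 := by
  obtain ⟨e, S₀, ae, pS, tw⟩ := tws A B h N G a nf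
  obtain ⟨d₁, d₀, A₁, B₁, A₀, B₀, a1, a0, neg, nd, h1, h0, e1, e0, r₁, r₀, le⟩ :=
    kk _ _ (h.tw ae.ne) S₀ pS
  have key : ∀ (d d' X Y X' Y' : ℤ) (k k' : ℕ), Ad d → Ad d' → 0 < e * d →
      (∀ p ∈ S₀, ¬ (p : ℤ) ∣ d) → (∀ p ∈ S₀, ¬ (p : ℤ) ∣ d') → El X Y → El X' Y' →
      Ae (A * e ^ 2 * d ^ 2) (B * e ^ 3 * d ^ 3) X Y →
      Ae (A * e ^ 2 * d' ^ 2) (B * e ^ 3 * d' ^ 3) X' Y' → k ≤ 1 → k' ≤ 1 → Ar X Y k → Ar X' Y' k' →
      (∀ v v', Di X Y k v → Di X' Y' k' v' → v + v' ≤ 0) → Di A B r 0 := by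
    intro d d' X Y X' Y' k k' ad ad' pos n n' hX hX' eX eX' k1 k1' rX rX' le
    rw [mul_assoc, mul_assoc, ← mul_pow, ← mul_pow] at eX eX'
    obtain ⟨b, l, -⟩ := tw d ad n
    obtain ⟨b', -, l'⟩ := tw d' ad' n'
    obtain ⟨N', G', a', nf', l'⟩ := l' (h.tw b'.ne)
    have l'' := lgi _ _ _ _ _ hX' N' a' 1 eX' l'
    obtain ⟨v, v₁, -, p1, D, D1, e⟩ := mt A B h N G a _ X Y r k nf b pos l1 l hX eX r1 k1 ar rX
    obtain ⟨v₂, -, p2, -, D2, -⟩ := mt X' Y' hX' N' G' a' 1 X' Y' k' k' (nf'.of eX') ad_one one_pos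
      l'' l'' hX' (by simpa using Ae.refl X' Y') k1' k1' rX' rX'
    have := le _ _ D1 D2
    rwa [e.2 (by omega)] at D
  have n1 := mul_ne_zero ae.ne a1.ne
  rcases lt_or_gt_of_ne n1 with c | c
  · have : 0 < e * d₀ := by
      have e2 : 0 < e ^ 2 := by have := ae.ne; positivity
      by_contra k
      nlinarith [mul_nonneg_of_nonpos_of_nonpos c.le (not_lt.1 k)]
    exact key d₀ d₁ _ _ _ _ 0 1 a0 a1 this (fun p m => (nd p m).2) (fun p m => (nd p m).1) h0 h1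
      e0 e1 zero_le_one le_rfl r₀ r₁ fun v v' x y => (add_comm _ _).trans_le (le _ _ y x)
  · exact key d₁ d₀ _ _ _ _ 1 0 a1 a0 c (fun p m => (nd p m).1) (fun p m => (nd p m).2) h1 h0
      e1 e0 le_rfl zero_le_one r₁ r₀ le

/-- **the glue** -/
theorem top (md : MODN) (lg : LGE) (lgi : LGI) (tws : TWS) (mt : MT) (kk : KK) (st : STAT) :
    BSD2 := by
  intro E _ hm L hL r r1 hr
  obtain ⟨A, B, u, r', s, t, m⟩ := Sm.ex_md E
  obtain ⟨ar, fin⟩ := st E hm L hL A B u r' s t r m r1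
  obtain ⟨N, G, a, nf⟩ := md A B m.hD
  exact fin (core lgi tws mt kk m.hD nf (lg E L hL A B u r' s t N G a m.hD m nf) r1 (ar hr))

/-- **the glue, weak continuation** -/
theorem tope (md : MODN) (lg : LGU) (lgi : LGI) (tws : TWS) (mt : MT) (kk : KK) (st : STE) :
    BSDE := by
  intro E _ hm L hL r r1 hr
  obtain ⟨A, B, u, r', s, t, m⟩ := Sm.ex_md E
  obtain ⟨ar, fin⟩ := st E hm L hL A B u r' s t r m r1
  obtain ⟨N, G, a, nf⟩ := md A B m.hD
  exact fin (core lgi tws mt kk m.hD nf (lg A B m.hD N G a nf) r1 (ar hr))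

end Vale.Agent.P014T.Top
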